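import Vale.Agent.P079.Full.Reflexive

/-!
P079: every reflexive Banach space has the fixed point property for nonexpansive maps.
-/

open Set

namespace Vale.Agent.Results.P079.ReflexiveFPP

universe u

theorem result :
    ∀ (X : Type u) [NormedAddCommGroup X] [NormedSpace ℝ X] [CompleteSpace X],
      Function.Surjective (NormedSpace.inclusionInDoubleDual ℝ X) →
      ∀ C : Set X, C.Nonempty → IsClosed C → Bornology.IsBounded C → Convex ℝ C →
        ∀ T : X → X, MapsTo T C C → LipschitzOnWith 1 T C → ∃ x ∈ C, T x = x := by
  intro X _ _ _ hX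
  exact Vale.Agent.P079.Full.hasFPP_of_reflexive hX

end Vale.Agent.Results.P079.ReflexiveFPP
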